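import Mathlib
import Vale.Agent.P123.Main

namespace Vale.Agent.Results.P123.Crouzeix

open scoped InnerProductSpace

universe u

/-- The numerical range `W(A)`: all values of the quadratic form of `A` on unit vectors.
Mathlib's inner product is linear in the second slot, so `inner x (A x)` is the
value written `<Ax, x>` in the convention linear in the first slot. -/
def numericalRange {H : Type u} [NormedAddCommGroup H] [InnerProductSpace ℂ H]
    (A : H →L[ℂ] H) : Set ℂ :=
  {z : ℂ | ∃ x : H, ‖x‖ = 1 ∧ z = ⟪x, A x⟫_ℂ}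

/-- `C` is admissible: `‖P(A)‖ ≤ C * sup over W(A) of |P|` for every nonzero complex Hilbert
space, every bounded operator `A` on it and every complex polynomial `P`. -/
def Admissible (C : ℝ) : Prop :=
  ∀ (H : Type u) [NormedAddCommGroup H] [InnerProductSpace ℂ H] [CompleteSpace H] [Nontrivial H]
    (A : H →L[ℂ] H) (P : Polynomial ℂ),
    ‖Polynomial.aeval A P‖ ≤ C * sSup ((fun z => ‖P.eval z‖) '' numericalRange A)

theorem result : IsLeast {C : ℝ | Admissible.{u} C} 2 := by
  constructor
  · intro H _ _ _ _ A P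
    exact Vale.Agent.P123.crouzeix_bound A P _ fun x hx =>
      le_csSup (Vale.Agent.P123.bdd_range A P) ⟨_, ⟨x, hx, rfl⟩, rfl⟩
  · intro C hC
    obtain ⟨A, hA, hA2⟩ := Vale.Agent.P123.exists_extremal.{u}
    have h := hC _ A Polynomial.X
    rw [Polynomial.aeval_X] at h
    set S := sSup ((fun z => ‖(Polynomial.X : Polynomial ℂ).eval z‖) '' numericalRange A) with hS
    have hS0 : 0 ≤ S := Real.sSup_nonneg (by rintro _ ⟨z, -, rfl⟩; exact norm_nonneg _)
    have hS1 : S ≤ 1 / 2 := by
      refine Real.sSup_le ?_ (by norm_num)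
      rintro _ ⟨z, ⟨x, hx, rfl⟩, rfl⟩
      simpa using hA2 x hx
    by_contra hlt
    push Not at hlt
    nlinarith [mul_nonneg (sub_nonneg.mpr hlt.le) hS0]

end Vale.Agent.Results.P123.Crouzeix
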